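import Vale.Agent.P148.R2.H258.A4

/-!
# Energy transfer (P148, module T), finite layer

`tot T σ Θ` is the sum over all classes `κ` of the colouring `σ` of `‖V_κ(Θ)‖²`.
`transfer`: the class of `o` carries at most the energy which is missing from the local classes.
-/

set_option linter.unusedSectionVars false

open Function ComplexConjugate

namespace Vale.Agent.P148.R2.H203

open H258

variable {V D : Type*} (T : Tri V D)

section fixed

variable [Fintype D] (σ : V → Bool)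

open Classical in
/-- Sum over the classes of `σ` of the squared class values of the weight `Θ`. -/
noncomputable def tot (Θ : D → ℂ) : ℝ :=
  (∑ d, ∑ e, (if T.Rel σ d e then Θ d * conj (Θ e) else 0)).re

open Classical in
/-- Restriction of a weight. -/
noncomputable def rs (A : D → Prop) (Θ : D → ℂ) (d : D) : ℂ := if A d then Θ d else 0

open Classical in
/-- Number of darts in the class of `d`. -/
noncomputable def ncl (d : D) : ℝ := ∑ e, if T.Rel σ e d then (1 : ℝ) else 0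

theorem ncl_nonneg (d : D) : 0 ≤ ncl T σ d := by
  classical
  exact Finset.sum_nonneg fun e _ => by split_ifs <;> norm_num

theorem cls_congr {d e : D} (h : T.Rel σ d e) (Θ : D → ℂ) : T.cls σ d Θ = T.cls σ e Θ := by
  classical
  unfold Tri.cls
  apply Finset.sum_congr rfl
  intro f _
  have : T.Rel σ f d ↔ T.Rel σ f e :=
    ⟨fun h' => T.rel_trans h' h, fun h' => T.rel_trans h' (T.rel_symm h)⟩
  simp only [this]

theorem ncl_congr {d e : D} (h : T.Rel σ d e) : ncl T σ d = ncl T σ e := by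
  classical
  unfold ncl
  apply Finset.sum_congr rfl
  intro f _
  have : T.Rel σ f d ↔ T.Rel σ f e :=
    ⟨fun h' => T.rel_trans h' h, fun h' => T.rel_trans h' (T.rel_symm h)⟩
  simp only [this]

theorem ncl_pos {d e : D} (h : T.Rel σ d e) : 0 < ncl T σ d := by
  classical
  have h1 : T.Rel σ d d := T.rel_refl h.1
  have : (1 : ℝ) ≤ ncl T σ d := by
    unfold ncl
    calc (1 : ℝ) = (if T.Rel σ d d then (1 : ℝ) else 0) := by rw [if_pos h1]
      _ ≤ _ := Finset.single_le_sum (f := fun e => if T.Rel σ e d then (1 : ℝ) else 0)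
          (fun e _ => by split_ifs <;> norm_num) (Finset.mem_univ d)
  linarith

open Classical in
theorem conj_cls (d : D) (Θ : D → ℂ) :
    conj (T.cls σ d Θ) = ∑ e, if T.Rel σ d e then conj (Θ e) else 0 := by
  unfold Tri.cls
  rw [map_sum]
  apply Finset.sum_congr rfl
  intro e _
  by_cases hh : T.Rel σ d e
  · simp [hh, T.rel_symm hh]
  · have : ¬ T.Rel σ e d := fun h => hh (T.rel_symm h)
    simp [hh, this]

/-- The pair sum is a sum of squares. -/
theorem tot_eq (Θ : D → ℂ) : tot T σ Θ = ∑ d, ‖T.cls σ d Θ‖ ^ 2 / ncl T σ d := by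
  classical
  have key : ∑ d, ∑ e, (if T.Rel σ d e then Θ d * conj (Θ e) else 0) =
      ((∑ d, ‖T.cls σ d Θ‖ ^ 2 / ncl T σ d : ℝ) : ℂ) := by
    have a1 : ∀ d, ((‖T.cls σ d Θ‖ ^ 2 / ncl T σ d : ℝ) : ℂ) =
        ∑ e, (if T.Rel σ e d then Θ e * conj (T.cls σ e Θ) / (ncl T σ e : ℂ) else 0) := by
      intro d
      have : ((‖T.cls σ d Θ‖ ^ 2 : ℝ) : ℂ) = T.cls σ d Θ * conj (T.cls σ d Θ) := by
        rw [Complex.mul_conj, Complex.normSq_eq_norm_sq]
      rw [Complex.ofReal_div, this]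
      have e1 : T.cls σ d Θ = ∑ e, if T.Rel σ e d then Θ e else 0 := by
        unfold Tri.cls; congr
      rw [mul_div_assoc]
      conv_lhs => arg 1; rw [e1]
      rw [Finset.sum_mul]
      apply Finset.sum_congr rfl
      intro e _
      split_ifs with hh
      · rw [cls_congr T σ hh Θ, ncl_congr T σ hh, mul_div_assoc]
      · ring
    rw [Complex.ofReal_sum, Finset.sum_congr rfl (fun d _ => a1 d)]
    conv_rhs => rw [Finset.sum_comm]
    apply Finset.sum_congr rfl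
    intro d _
    by_cases hd : T.Rel σ d d
    · have hnz : (ncl T σ d : ℂ) ≠ 0 := by exact_mod_cast (ncl_pos T σ hd).ne'
      have b1 : ∑ e, (if T.Rel σ d e then Θ d * conj (T.cls σ d Θ) / (ncl T σ d : ℂ) else 0) =
          (∑ e, if T.Rel σ e d then (1 : ℂ) else 0) *
            (Θ d * conj (T.cls σ d Θ) / (ncl T σ d : ℂ)) := by
        rw [Finset.sum_mul]
        apply Finset.sum_congr rfl
        intro e _
        by_cases hh : T.Rel σ d e
        · simp [hh, T.rel_symm hh]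
        · have : ¬ T.Rel σ e d := fun h => hh (T.rel_symm h)
          simp [hh, this]
      have b2 : (∑ e, if T.Rel σ e d then (1 : ℂ) else 0) = (ncl T σ d : ℂ) := by
        unfold ncl
        push_cast
        apply Finset.sum_congr rfl
        intro e _
        split_ifs <;> simp
      rw [b1, b2, mul_div_assoc', mul_comm (ncl T σ d : ℂ), mul_div_assoc, div_self hnz, mul_one,
        conj_cls, Finset.mul_sum]
      apply Finset.sum_congr rfl
      intro e _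
      split_ifs <;> simp
    · have : ∀ e, ¬ T.Rel σ d e := fun e h => hd (T.rel_refl h.1)
      simp [this]
  unfold tot
  rw [key, Complex.ofReal_re]

theorem tot_nonneg (Θ : D → ℂ) : 0 ≤ tot T σ Θ := by
  rw [tot_eq]
  exact Finset.sum_nonneg fun d _ => div_nonneg (by positivity) (ncl_nonneg T σ d)

theorem cls_add (d : D) (Θ Θ' : D → ℂ) :
    T.cls σ d (fun x => Θ x + Θ' x) = T.cls σ d Θ + T.cls σ d Θ' := by
  classical
  unfold Tri.cls
  rw [← Finset.sum_add_distrib]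
  apply Finset.sum_congr rfl
  intro e _
  split_ifs <;> simp

theorem cls_smul (d : D) (c : ℂ) (Θ : D → ℂ) :
    T.cls σ d (fun x => c * Θ x) = c * T.cls σ d Θ := by
  classical
  unfold Tri.cls
  rw [Finset.mul_sum]
  apply Finset.sum_congr rfl
  intro e _
  split_ifs <;> simp

theorem tot_smul (c : ℂ) (Θ : D → ℂ) : tot T σ (fun x => c * Θ x) = ‖c‖ ^ 2 * tot T σ Θ := by
  rw [tot_eq, tot_eq, Finset.mul_sum]
  apply Finset.sum_congr rfl
  intro d _
  rw [cls_smul, norm_mul]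
  ring

theorem sq_add_le (a b : ℂ) : ‖a + b‖ ^ 2 ≤ 2 * ‖a‖ ^ 2 + 2 * ‖b‖ ^ 2 := by
  have h1 := norm_add_le a b
  have h2 : ‖a + b‖ ^ 2 ≤ (‖a‖ + ‖b‖) ^ 2 := pow_le_pow_left₀ (norm_nonneg _) h1 2
  nlinarith [sq_nonneg (‖a‖ - ‖b‖)]

theorem tot_add_le (Θ Θ' : D → ℂ) :
    tot T σ (fun x => Θ x + Θ' x) ≤ 2 * tot T σ Θ + 2 * tot T σ Θ' := by
  rw [tot_eq, tot_eq, tot_eq, Finset.mul_sum, Finset.mul_sum, ← Finset.sum_add_distrib]
  apply Finset.sum_le_sum
  intro d _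
  rw [cls_add]
  have h := sq_add_le (T.cls σ d Θ) (T.cls σ d Θ')
  rcases (ncl_nonneg T σ d).eq_or_lt with h0 | h0
  · rw [← h0]; simp
  · rw [mul_div_assoc', mul_div_assoc', ← add_div]
    exact div_le_div_of_nonneg_right h h0.le

theorem cls_sq_le (o : D) (Θ : D → ℂ) : ‖T.cls σ o Θ‖ ^ 2 ≤ tot T σ Θ := T.cls_le σ o Θ

/-- A set of darts which is a union of classes. -/
def Sat (A : D → Prop) : Prop := ∀ d e, T.Rel σ d e → A d → A e

variable {T σ}

theorem Sat.iff {A : D → Prop} (h : Sat T σ A) {d e : D} (hr : T.Rel σ d e) : A d ↔ A e :=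
  ⟨h d e hr, h e d (T.rel_symm hr)⟩

theorem Sat.not {A : D → Prop} (h : Sat T σ A) : Sat T σ (fun d => ¬ A d) :=
  fun _ _ hr ha hb => ha ((h.iff hr).2 hb)

theorem Sat.cls_rs {A : D → Prop} (h : Sat T σ A) (Θ : D → ℂ) {d : D} (hd : A d) :
    T.cls σ d (rs A Θ) = T.cls σ d Θ := by
  classical
  unfold Tri.cls rs
  apply Finset.sum_congr rfl
  intro e _
  by_cases hr : T.Rel σ e d
  · have : A e := (h.iff hr).2 hd
    simp [hr, this]
  · simp [hr]

theorem Sat.cls_rs' {A : D → Prop} (h : Sat T σ A) (Θ : D → ℂ) {d : D} (hd : ¬ A d) :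
    T.cls σ d (rs A Θ) = 0 := by
  classical
  unfold Tri.cls rs
  apply Finset.sum_eq_zero
  intro e _
  by_cases hr : T.Rel σ e d
  · have : ¬ A e := fun hh => hd ((h.iff hr).1 hh)
    simp [this]
  · simp [hr]

/-- Splitting along a union of classes. -/
theorem Sat.tot_split {A : D → Prop} (h : Sat T σ A) (Θ : D → ℂ) :
    tot T σ Θ = tot T σ (rs A Θ) + tot T σ (rs (fun d => ¬ A d) Θ) := by
  rw [tot_eq, tot_eq, tot_eq, ← Finset.sum_add_distrib]
  apply Finset.sum_congr rfl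
  intro d _
  by_cases hd : A d
  · rw [h.cls_rs Θ hd, h.not.cls_rs' Θ (not_not.2 hd)]; simp
  · rw [h.cls_rs' Θ hd, h.not.cls_rs Θ hd]; simp

theorem Sat.exists {ι : Type*} {A : ι → D → Prop} (h : ∀ i, Sat T σ (A i)) :
    Sat T σ (fun d => ∃ i, A i d) := fun _ _ hr ⟨i, hi⟩ => ⟨i, h i _ _ hr hi⟩

/-- Disjoint unions of classes. -/
theorem tot_iUnion {ι : Type*} [Fintype ι] {A : ι → D → Prop} (h : ∀ i, Sat T σ (A i))
    (hd : ∀ i j d, A i d → A j d → i = j) (Θ : D → ℂ) :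
    tot T σ (rs (fun d => ∃ i, A i d) Θ) = ∑ i, tot T σ (rs (A i) Θ) := by
  classical
  simp_rw [tot_eq]
  rw [Finset.sum_comm]
  apply Finset.sum_congr rfl
  intro d _
  by_cases hh : ∃ i, A i d
  · rw [(Sat.exists h).cls_rs Θ hh]
    obtain ⟨i, hi⟩ := hh
    rw [Finset.sum_eq_single i]
    · rw [(h i).cls_rs Θ hi]
    · intro j _ hj
      rw [(h j).cls_rs' Θ (fun hh => hj (hd j i d hh hi))]; simp
    · intro hh; exact absurd (Finset.mem_univ i) hh
  · rw [(Sat.exists h).cls_rs' Θ hh]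
    symm
    have : ∑ i, ‖T.cls σ d (rs (A i) Θ)‖ ^ 2 / ncl T σ d = ∑ _i : ι, (0 : ℝ) := by
      apply Finset.sum_congr rfl
      intro i _
      rw [(h i).cls_rs' Θ (fun hi => hh ⟨i, hi⟩)]; simp
    rw [this]; simp

end fixed

section energy

variable [Fintype D] [Fintype V]

open Classical in
/-- Mean total energy of a rotating weight. -/
theorem sum_tot (hP : T.Planar) {τ : ℂ} (hτ : τ ^ 2 + τ + 1 = 0) {Θ : D → ℂ}
    (h : ∀ d, Θ (T.nxt d) = τ ^ 2 * Θ d) (hg : ∀ d, ¬ T.Good d → Θ d = 0) :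
    ∑ σ : V → Bool, tot T σ Θ = 2 ^ Fintype.card V / 4 * ∑ d, ‖Θ d‖ ^ 2 := by
  have h1 := T.energy hP hτ h h hg
  have h2 : ∑ d, Θ d * conj (Θ d) = ((∑ d, ‖Θ d‖ ^ 2 : ℝ) : ℂ) := by
    push_cast
    apply Finset.sum_congr rfl
    intro d _
    rw [Complex.mul_conj, Complex.normSq_eq_norm_sq]
    push_cast; ring
  rw [h2] at h1
  have h3 := congrArg Complex.re h1
  have h4 : ((4 : ℂ) * ∑ σ : V → Bool, ∑ d, ∑ e,
      (if T.Rel σ d e then Θ d * conj (Θ e) else 0)).re = 4 * ∑ σ : V → Bool, tot T σ Θ := by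
    rw [show (4 : ℂ) = ((4 : ℝ) : ℂ) by norm_num, Complex.re_ofReal_mul, Complex.re_sum]
    rfl
  have h5 : ((2 : ℂ) ^ Fintype.card V * ((∑ d, ‖Θ d‖ ^ 2 : ℝ) : ℂ)).re =
      2 ^ Fintype.card V * ∑ d, ‖Θ d‖ ^ 2 := by
    rw [show (2 : ℂ) ^ Fintype.card V = (((2 : ℝ) ^ Fintype.card V : ℝ) : ℂ) by push_cast; rfl,
      Complex.re_ofReal_mul, Complex.ofReal_re]
  rw [h4, h5] at h3
  linarith

variable {T}

theorem rs_rot {τ : ℂ} {Θ : D → ℂ} (h : ∀ d, Θ (T.nxt d) = τ ^ 2 * Θ d) {F : D → Prop}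
    (hF : ∀ d, F (T.nxt d) ↔ F d) (d : D) : rs F Θ (T.nxt d) = τ ^ 2 * rs F Θ d := by
  classical
  unfold rs
  by_cases hd : F d
  · simp [hd, (hF d).2 hd, h]
  · have : ¬ F (T.nxt d) := fun hh => hd ((hF d).1 hh)
    simp [hd, this]

theorem rs_good {Θ : D → ℂ} (hg : ∀ d, ¬ T.Good d → Θ d = 0) (F : D → Prop) (d : D)
    (hd : ¬ T.Good d) : rs F Θ d = 0 := by
  classical
  unfold rs
  split_ifs
  · exact hg d hd
  · rfl

theorem rs_rs {A B : D → Prop} (Θ : D → ℂ) (h : ∀ d, A d → B d) : rs A (rs B Θ) = rs A Θ := by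
  classical
  funext d
  unfold rs
  by_cases hd : A d
  · simp [hd, h d hd]
  · simp [hd]

open Classical in
/-- **Energy transfer.** Cells `F i` of faces, local classes `L σ i` inside the cells, `χ` a scalar
weight which is almost the constant `c i` on the cell `F i`. -/
theorem transfer (hP : T.Planar) {τ : ℂ} (hτ : τ ^ 2 + τ + 1 = 0) {Θ : D → ℂ}
    (h : ∀ d, Θ (T.nxt d) = τ ^ 2 * Θ d) (hg : ∀ d, ¬ T.Good d → Θ d = 0)
    {ι : Type*} [Fintype ι] (F : ι → D → Prop) (hF : ∀ i d, F i (T.nxt d) ↔ F i d)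
    (hFd : ∀ i j d, F i d → F j d → i = j)
    (L : (V → Bool) → ι → D → Prop) (hLF : ∀ σ i d, L σ i d → F i d)
    (hL : ∀ σ i, Sat T σ (L σ i)) (o : D) (ho : ∀ σ i, ¬ L σ i o)
    (χ : D → ℝ) (hχ : ∀ d, χ (T.nxt d) = χ d) (c : ι → ℝ) {ω : ℝ}
    (hω : ∀ i d, F i d → |χ d - c i| ≤ ω) :
    ∑ σ : V → Bool, ‖T.cls σ o (fun d => (χ d : ℂ) * Θ d)‖ ^ 2 ≤
      ∑ i, (2 * c i ^ 2 * (2 ^ Fintype.card V / 4 * ∑ d, ‖rs (F i) Θ d‖ ^ 2 -
          ∑ σ : V → Bool, tot T σ (rs (L σ i) Θ)) +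
        2 * ω ^ 2 * (2 ^ Fintype.card V / 4 * ∑ d, ‖rs (F i) Θ d‖ ^ 2)) +
      2 ^ Fintype.card V / 4 * ∑ d, ‖rs (fun d => ¬ ∃ i, F i d) (fun d => (χ d : ℂ) * Θ d) d‖ ^ 2 := by
  set Ψ : D → ℂ := fun d => (χ d : ℂ) * Θ d with hΨ
  have hΨr : ∀ d, Ψ (T.nxt d) = τ ^ 2 * Ψ d := by
    intro d; simp only [hΨ]; rw [hχ, h]; ring
  have hΨg : ∀ d, ¬ T.Good d → Ψ d = 0 := by
    intro d hd; simp only [hΨ]; rw [hg d hd, mul_zero]
  set K : ℝ := 2 ^ Fintype.card V / 4 with hK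
  have hK0 : 0 ≤ K := by rw [hK]; positivity
  -- the class of `o` is not local
  have s1 : ∀ σ : V → Bool, ‖T.cls σ o Ψ‖ ^ 2 ≤ tot T σ Ψ - ∑ i, tot T σ (rs (L σ i) Ψ) := by
    intro σ
    have hS : Sat T σ (fun d => ∃ i, L σ i d) := Sat.exists (hL σ)
    have ho' : ¬ ∃ i, L σ i o := fun ⟨i, hi⟩ => ho σ i hi
    have e1 := cls_sq_le T σ o (rs (fun d => ¬ ∃ i, L σ i d) Ψ)
    rw [hS.not.cls_rs Ψ ho'] at e1
    have e2 := hS.tot_split Ψ
    have e3 := tot_iUnion (hL σ) (fun i j d hi hj => hFd i j d (hLF σ i d hi) (hLF σ j d hj)) Ψ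
    linarith
  -- mean total energy splits over the cells
  have s2 : ∑ σ : V → Bool, tot T σ Ψ =
      ∑ i, ∑ σ : V → Bool, tot T σ (rs (F i) Ψ) +
        K * ∑ d, ‖rs (fun d => ¬ ∃ i, F i d) Ψ d‖ ^ 2 := by
    rw [sum_tot T hP hτ hΨr hΨg]
    have : ∀ i, ∑ σ : V → Bool, tot T σ (rs (F i) Ψ) = K * ∑ d, ‖rs (F i) Ψ d‖ ^ 2 := fun i =>
      sum_tot T hP hτ (rs_rot hΨr (hF i)) (rs_good hΨg (F i))
    rw [Finset.sum_congr rfl (fun i _ => this i), ← Finset.mul_sum, ← mul_add, ← hK]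
    congr 1
    rw [Finset.sum_comm, ← Finset.sum_add_distrib]
    apply Finset.sum_congr rfl
    intro d _
    by_cases hd : ∃ i, F i d
    · obtain ⟨i, hi⟩ := hd
      rw [Finset.sum_eq_single i]
      · have : ¬ ¬ ∃ i, F i d := not_not.2 ⟨i, hi⟩
        unfold rs
        rw [if_pos hi, if_neg this]; simp
      · intro j _ hj
        unfold rs
        rw [if_neg (fun hh => hj (hFd j i d hh hi))]; simp
      · intro hh; exact absurd (Finset.mem_univ i) hh
    · have : ∑ i, ‖rs (F i) Ψ d‖ ^ 2 = ∑ _i : ι, (0 : ℝ) := by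
        apply Finset.sum_congr rfl
        intro i _
        unfold rs
        rw [if_neg (fun hi => hd ⟨i, hi⟩)]; simp
      rw [this]
      unfold rs
      rw [if_pos hd]; simp
  -- one cell
  have s3 : ∀ i, ∑ σ : V → Bool, (tot T σ (rs (F i) Ψ) - tot T σ (rs (L σ i) Ψ)) ≤
      2 * c i ^ 2 * (K * ∑ d, ‖rs (F i) Θ d‖ ^ 2 - ∑ σ : V → Bool, tot T σ (rs (L σ i) Θ)) +
        2 * ω ^ 2 * (K * ∑ d, ‖rs (F i) Θ d‖ ^ 2) := by
    intro i
    set Ξ : D → ℂ := fun d => ((χ d - c i : ℝ) : ℂ) * Θ d with hΞ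
    have hΞr : ∀ d, Ξ (T.nxt d) = τ ^ 2 * Ξ d := by
      intro d; simp only [hΞ]; rw [hχ, h]; ring
    have hΞg : ∀ d, ¬ T.Good d → Ξ d = 0 := by
      intro d hd; simp only [hΞ]; rw [hg d hd, mul_zero]
    have a1 : ∀ (Φ : D → ℂ) (σ : V → Bool), tot T σ (rs (F i) Φ) - tot T σ (rs (L σ i) Φ) =
        tot T σ (rs (fun d => ¬ L σ i d) (rs (F i) Φ)) := by
      intro Φ σ
      have := (hL σ i).tot_split (rs (F i) Φ)
      rw [rs_rs Φ (hLF σ i)] at this
      linarith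
    have a2 : ∀ σ : V → Bool, tot T σ (rs (F i) Ψ) - tot T σ (rs (L σ i) Ψ) ≤
        2 * c i ^ 2 * (tot T σ (rs (F i) Θ) - tot T σ (rs (L σ i) Θ)) +
          2 * tot T σ (rs (F i) Ξ) := by
      intro σ
      rw [a1, a1]
      have b1 : rs (fun d => ¬ L σ i d) (rs (F i) Ψ) = fun d =>
          (c i : ℂ) * rs (fun d => ¬ L σ i d) (rs (F i) Θ) d +
            rs (fun d => ¬ L σ i d) (rs (F i) Ξ) d := by
        funext d
        unfold rs
        by_cases hd : L σ i d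
        · simp [hd]
        · by_cases hd' : F i d
          · simp only [hd, hd', hΨ, hΞ, not_false_eq_true, if_true]
            push_cast; ring
          · simp [hd']
      rw [b1]
      have b2 := tot_add_le T σ (fun d => (c i : ℂ) * rs (fun d => ¬ L σ i d) (rs (F i) Θ) d)
        (rs (fun d => ¬ L σ i d) (rs (F i) Ξ))
      rw [tot_smul] at b2
      have b3 : ‖(c i : ℂ)‖ ^ 2 = c i ^ 2 := by
        rw [Complex.norm_real, Real.norm_eq_abs, sq_abs]
      rw [b3] at b2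
      have b4 : tot T σ (rs (fun d => ¬ L σ i d) (rs (F i) Ξ)) ≤ tot T σ (rs (F i) Ξ) := by
        rw [← a1]
        have := tot_nonneg T σ (rs (L σ i) Ξ)
        linarith
      linarith
    have a3 : ∑ σ : V → Bool, tot T σ (rs (F i) Ξ) ≤ ω ^ 2 * (K * ∑ d, ‖rs (F i) Θ d‖ ^ 2) := by
      rw [sum_tot T hP hτ (rs_rot hΞr (hF i)) (rs_good hΞg (F i)), ← hK]
      rw [mul_left_comm]
      apply mul_le_mul_of_nonneg_left _ hK0
      rw [Finset.mul_sum]
      apply Finset.sum_le_sum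
      intro d _
      unfold rs
      by_cases hd : F i d
      · simp only [hd, if_true, hΞ]
        rw [norm_mul, mul_pow, Complex.norm_real, Real.norm_eq_abs]
        apply mul_le_mul_of_nonneg_right _ (by positivity)
        exact pow_le_pow_left₀ (abs_nonneg _) (hω i d hd) 2
      · simp [hd]
    have a4 : ∑ σ : V → Bool, tot T σ (rs (F i) Θ) = K * ∑ d, ‖rs (F i) Θ d‖ ^ 2 :=
      sum_tot T hP hτ (rs_rot h (hF i)) (rs_good hg (F i))
    calc ∑ σ : V → Bool, (tot T σ (rs (F i) Ψ) - tot T σ (rs (L σ i) Ψ))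
        ≤ ∑ σ : V → Bool, (2 * c i ^ 2 * (tot T σ (rs (F i) Θ) - tot T σ (rs (L σ i) Θ)) +
          2 * tot T σ (rs (F i) Ξ)) := Finset.sum_le_sum fun σ _ => a2 σ
      _ = 2 * c i ^ 2 * (∑ σ : V → Bool, tot T σ (rs (F i) Θ) -
            ∑ σ : V → Bool, tot T σ (rs (L σ i) Θ)) +
          2 * ∑ σ : V → Bool, tot T σ (rs (F i) Ξ) := by
          rw [Finset.sum_add_distrib, ← Finset.mul_sum, ← Finset.mul_sum, Finset.sum_sub_distrib]
      _ ≤ _ := by rw [a4]; linarith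
  calc ∑ σ : V → Bool, ‖T.cls σ o Ψ‖ ^ 2
      ≤ ∑ σ : V → Bool, (tot T σ Ψ - ∑ i, tot T σ (rs (L σ i) Ψ)) :=
        Finset.sum_le_sum fun σ _ => s1 σ
    _ = ∑ i, ∑ σ : V → Bool, (tot T σ (rs (F i) Ψ) - tot T σ (rs (L σ i) Ψ)) +
        K * ∑ d, ‖rs (fun d => ¬ ∃ i, F i d) Ψ d‖ ^ 2 := by
        rw [Finset.sum_sub_distrib, s2]
        rw [Finset.sum_comm (f := fun σ i => tot T σ (rs (L σ i) Ψ))]
        simp_rw [Finset.sum_sub_distrib]
        ring
    _ ≤ _ := by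
        apply add_le_add_left
        exact Finset.sum_le_sum fun i _ => s3 i

end energy

end Vale.Agent.P148.R2.H203
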