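import Vale.Agent.P148.R2.H184.L4
import Vale.Agent.P148.R2.H203.T1

/-!
# Energy transfer (P148, module T): local loops of the plane

In every sphere triangulation `tri258` which does not glue the points of the cells `Q i`, the class
of `o` carries at most the energy missing from the local loops of the cells.
-/

set_option linter.unusedSectionVars false

open Set Metric Function ComplexConjugate
open scoped ENNReal

namespace Vale.Agent.P148.R2.H203

open H592 H184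

section

variable {X : Set ℂ} {b : ZMod 3 → ℂ} (h : HullTri X b) {V : Type*} (π : ℂ → V) (hπ : Fib X π)

/-- Local faces are good. -/
theorem LF.good {Q : Set ℂ} (hF : Faith X Q π) {q : Fc X b × ZMod 3} (hl : LF X Q (dt q)) :
    (h.tri258 π hπ).Good q := by
  obtain ⟨m1, m2, m3⟩ := hl.mem
  obtain ⟨n1, n2, n3⟩ := hl.ne
  refine ⟨?_, ?_, ?_⟩
  · rw [src_eq, tgt_eq]
    exact fun he => n1 (hF _ hl.1.1 m1 _ hl.1.2.1 he)
  · rw [tgt_eq, apex_eq]
    exact fun he => n2 (hF _ hl.1.2.1 m2 _ hl.1.2.2 he)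
  · rw [apex_eq, src_eq]
    exact fun he => n3 (hF _ hl.1.2.2 m3 _ hl.1.1 he)

/-- Darts on local loops form a union of classes. -/
theorem sat_inL [Finite V] (Q : Set ℂ) (hF : Faith X Q π) (σ : V → Bool) :
    Sat (h.tri258 π hπ) σ (fun q => InL X Q (pc π σ) (dt q)) := by
  intro q r hr hq
  exact Rl.inL_right h.three ((rel_iff h π hπ hF hq).1 hr)

open Classical in
/-- Transport of a weight, killed on the faces which are not good. -/
noncomputable def wt (Θ : Dt → ℂ) (q : Fc X b × ZMod 3) : ℂ :=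
  if (h.tri258 π hπ).Good q then Θ (dt q) else 0

theorem good_nxt (q : Fc X b × ZMod 3) :
    (h.tri258 π hπ).Good ((h.tri258 π hπ).nxt q) ↔ (h.tri258 π hπ).Good q := by
  constructor
  · intro hq
    have := hq.nxt.nxt
    rwa [(h.tri258 π hπ).nxt3] at this
  · exact fun hq => hq.nxt

theorem wt_rot {τ : ℂ} {Θ : Dt → ℂ} (hΘ : ∀ d, Θ (rt d) = τ ^ 2 * Θ d) (q : Fc X b × ZMod 3) :
    wt h π hπ Θ ((h.tri258 π hπ).nxt q) = τ ^ 2 * wt h π hπ Θ q := by
  classical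
  unfold wt
  simp only [good_nxt]
  split_ifs
  · show Θ (dt (q.1, q.2 + 1)) = _
    rw [dt_next, hΘ]
  · simp

theorem wt_good (Θ : Dt → ℂ) (q : Fc X b × ZMod 3) (hq : ¬ (h.tri258 π hπ).Good q) :
    wt h π hπ Θ q = 0 := by
  classical
  unfold wt
  rw [if_neg hq]

variable [Fintype (Fc X b × ZMod 3)]

/-- The energy of the local loops is the energy of their classes in the triangulation. -/
theorem SQ_eq_tot [Finite V] (Q : Set ℂ) (hF : Faith X Q π) (Θ : Dt → ℂ) (σ : V → Bool) :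
    SQ X Q (pc π σ) Θ = ENNReal.ofReal (tot (h.tri258 π hπ) σ
      (rs (fun q => InL X Q (pc π σ) (dt q)) (wt h π hπ Θ))) := by
  classical
  have hS := sat_inL h π hπ Q hF σ
  rw [tot_eq]
  have hnn : ∀ q, 0 ≤ ‖(h.tri258 π hπ).cls σ q (rs (fun q => InL X Q (pc π σ) (dt q))
      (wt h π hπ Θ))‖ ^ 2 / ncl (h.tri258 π hπ) σ q :=
    fun q => div_nonneg (by positivity) (ncl_nonneg _ _ _)
  unfold SQ
  rw [tsum_dt (Q := Q) h, ENNReal.ofReal_sum_of_nonneg (fun q _ => hnn q)]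
  · refine Finset.sum_congr rfl fun q _ => ?_
    by_cases hq : InL X Q (pc π σ) (dt q)
    · have e1 : (h.tri258 π hπ).cls σ q (rs (fun q => InL X Q (pc π σ) (dt q))
          (wt h π hπ Θ)) = W X Q (pc π σ) Θ (dt q) := by
        rw [← cls_eq h π hπ hF Θ hq]
        unfold H258.Tri.cls
        apply Finset.sum_congr rfl
        intro e _
        by_cases he : (h.tri258 π hπ).Rel σ e q
        · rw [if_pos he, if_pos he]
          have hin : InL X Q (pc π σ) (dt e) := (hS.iff he).2 hq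
          unfold rs thQ wt
          rw [if_pos hin, if_pos hin.lf, if_pos (LF.good h π hπ hF hin.lf)]
        · rw [if_neg he, if_neg he]
      have e2 : ncl (h.tri258 π hπ) σ q = H184.ncl (h.tri258 π hπ) σ q := by
        unfold ncl H184.ncl
        rfl
      unfold gg
      rw [e1, e2, ncl_eq h π hπ hF hq]
    · rw [gg_zero Θ hq, hS.cls_rs' _ hq]; simp
  · intro d hd
    by_contra hl
    apply hd
    rw [gg_zero Θ (fun hin => hl hin.lf), ENNReal.ofReal_zero]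

open Classical in
/-- The energy of the faces in no cell. -/
noncomputable def rest {ι : Type*} (Q : ι → Set ℂ) (Ψ : Dt → ℂ) : ℝ≥0∞ :=
  ∑ q : Fc X b × ZMod 3, if ∃ i, LF X (Q i) (dt q) then 0 else
    ENNReal.ofReal (‖wt h π hπ Ψ q‖ ^ 2)

theorem EQ_eq (Q : Set ℂ) (hF : Faith X Q π) (Θ : Dt → ℂ) :
    EQ X Q Θ = ENNReal.ofReal (∑ q, ‖rs (fun q => LF X Q (dt q)) (wt h π hπ Θ) q‖ ^ 2) := by
  classical
  unfold EQ
  rw [tsum_dt (Q := Q) h, ENNReal.ofReal_sum_of_nonneg (fun q _ => by positivity)]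
  · refine Finset.sum_congr rfl fun q _ => ?_
    unfold rs wt
    by_cases hl : LF X Q (dt q)
    · rw [if_pos hl, if_pos hl, if_pos (LF.good h π hπ hF hl)]
    · rw [if_neg hl, if_neg hl]; simp
  · intro d hd
    by_contra hl
    rw [if_neg hl] at hd
    exact hd rfl

open Classical in
/-- **Energy transfer** for the local loops of the plane. -/
theorem transfer_plane [Fintype V] {τ : ℂ} (hτ : τ ^ 2 + τ + 1 = 0)
    {Θ : Dt → ℂ} (hΘ : ∀ d, Θ (rt d) = τ ^ 2 * Θ d)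
    {ι : Type*} [Fintype ι] (Q : ι → Set ℂ) (hQ : Pairwise fun i j => Disjoint (Q i) (Q j))
    (hF : ∀ i, Faith X (Q i) π) (o : Fc X b × ZMod 3) (ho : ∀ i, ¬ LF X (Q i) (dt o))
    (χ : Dt → ℝ) (hχ : ∀ d, χ (rt d) = χ d) (c : ι → ℝ) {ω : ℝ}
    (hω : ∀ i d, LF X (Q i) d → |χ d - c i| ≤ ω) :
    4 * ∑ σ : V → Bool, ENNReal.ofReal (‖(h.tri258 π hπ).cls σ o
        (wt h π hπ (fun d => (χ d : ℂ) * Θ d))‖ ^ 2) +
      ∑ i, ENNReal.ofReal (2 * c i ^ 2) * (4 * ∑ σ : V → Bool, SQ X (Q i) (pc π σ) Θ) ≤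
    2 ^ Fintype.card V * (∑ i, ENNReal.ofReal (2 * c i ^ 2 + 2 * ω ^ 2) * EQ X (Q i) Θ +
      rest h π hπ Q (fun d => (χ d : ℂ) * Θ d)) := by
  have hP := h.planar258 π hπ
  set T := h.tri258 π hπ with hT
  have hdisj : ∀ i j d, LF X (Q i) d → LF X (Q j) d → i = j := by
    intro i j d hi hj
    by_contra hne
    exact Set.disjoint_left.1 (hQ hne) hi.mem.1 hj.mem.1
  have hFr : ∀ (i : ι) (q : Fc X b × ZMod 3), LF X (Q i) (dt (T.nxt q)) ↔ LF X (Q i) (dt q) := by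
    intro i q
    show LF X (Q i) (dt (q.1, q.2 + 1)) ↔ _
    rw [dt_next, LF_rt]
  have hχ' : ∀ q : Fc X b × ZMod 3, χ (dt (T.nxt q)) = χ (dt q) := by
    intro q
    show χ (dt (q.1, q.2 + 1)) = _
    rw [dt_next, hχ]
  have main := transfer (T := T) hP hτ (wt_rot h π hπ hΘ) (wt_good h π hπ Θ)
    (fun i q => LF X (Q i) (dt q)) hFr (fun i j q hi hj => hdisj i j _ hi hj)
    (fun σ i q => InL X (Q i) (pc π σ) (dt q)) (fun σ i q hq => hq.lf)
    (fun σ i => sat_inL h π hπ (Q i) (hF i) σ) o (fun σ i hi => ho i hi.lf)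
    (fun q => χ (dt q)) hχ' c (ω := ω) (fun i q hi => hω i _ hi)
  have hw : (fun q => (χ (dt q) : ℂ) * wt h π hπ Θ q) =
      wt h π hπ (fun d => (χ d : ℂ) * Θ d) := by
    funext q
    unfold wt
    split_ifs <;> simp
  rw [hw] at main
  set N := Fintype.card V with hN
  set Ψ : Dt → ℂ := fun d => (χ d : ℂ) * Θ d with hΨ
  -- real versions
  set e : ι → ℝ := fun i => ∑ q, ‖rs (fun q => LF X (Q i) (dt q)) (wt h π hπ Θ) q‖ ^ 2 with he
  set s : ι → (V → Bool) → ℝ := fun i σ =>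
    tot T σ (rs (fun q => InL X (Q i) (pc π σ) (dt q)) (wt h π hπ Θ)) with hs
  set r : ℝ := ∑ q, ‖rs (fun q => ¬ ∃ i, LF X (Q i) (dt q)) (wt h π hπ Ψ) q‖ ^ 2 with hr
  set a : (V → Bool) → ℝ := fun σ => ‖T.cls σ o (wt h π hπ Ψ)‖ ^ 2 with ha
  have he0 : ∀ i, 0 ≤ e i := fun i => Finset.sum_nonneg fun q _ => by positivity
  have hs0 : ∀ i σ, 0 ≤ s i σ := fun i σ => tot_nonneg T σ _
  have hr0 : 0 ≤ r := Finset.sum_nonneg fun q _ => by positivity
  have ha0 : ∀ σ, 0 ≤ a σ := fun σ => by positivity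
  have main' : 4 * ∑ σ, a σ + ∑ i, (2 * c i ^ 2) * (4 * ∑ σ, s i σ) ≤
      2 ^ N * (∑ i, (2 * c i ^ 2 + 2 * ω ^ 2) * e i + r) := by
    have m1 : ∑ σ, a σ ≤ ∑ i, (2 * c i ^ 2 * (2 ^ N / 4 * e i - ∑ σ, s i σ) +
        2 * ω ^ 2 * (2 ^ N / 4 * e i)) + 2 ^ N / 4 * r := main
    have m2 : ∑ i, (2 * c i ^ 2 * (2 ^ N / 4 * e i - ∑ σ, s i σ) +
        2 * ω ^ 2 * (2 ^ N / 4 * e i)) = 2 ^ N / 4 * ∑ i, (2 * c i ^ 2 + 2 * ω ^ 2) * e i -
          ∑ i, (2 * c i ^ 2) * (∑ σ, s i σ) := by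
      rw [Finset.mul_sum, ← Finset.sum_sub_distrib]
      apply Finset.sum_congr rfl
      intro i _
      ring
    rw [m2] at m1
    have m3 : ∑ i, (2 * c i ^ 2) * (4 * ∑ σ, s i σ) = 4 * ∑ i, (2 * c i ^ 2) * (∑ σ, s i σ) := by
      rw [Finset.mul_sum]
      apply Finset.sum_congr rfl
      intro i _
      ring
    rw [m3]
    nlinarith [m1]
  have c1 : ∀ i, EQ X (Q i) Θ = ENNReal.ofReal (e i) := fun i => EQ_eq h π hπ (Q i) (hF i) Θ
  have c2 : ∀ i σ, SQ X (Q i) (pc π σ) Θ = ENNReal.ofReal (s i σ) := fun i σ =>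
    SQ_eq_tot h π hπ (Q i) (hF i) Θ σ
  have c3 : rest h π hπ Q Ψ = ENNReal.ofReal r := by
    rw [hr, ENNReal.ofReal_sum_of_nonneg (fun q _ => by positivity)]
    unfold rest rs
    refine Finset.sum_congr rfl fun q _ => ?_
    by_cases hq : ∃ i, LF X (Q i) (dt q)
    · rw [if_pos hq, if_neg (not_not.2 hq)]; simp
    · rw [if_neg hq, if_pos hq]
  have d4 : (4 : ℝ≥0∞) = ENNReal.ofReal 4 := by norm_num
  have d2 : (2 : ℝ≥0∞) ^ N = ENNReal.ofReal (2 ^ N) := by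
    rw [ENNReal.ofReal_pow (by norm_num)]; norm_num
  have L1 : 4 * ∑ σ, ENNReal.ofReal (a σ) + ∑ i, ENNReal.ofReal (2 * c i ^ 2) *
      (4 * ∑ σ, SQ X (Q i) (pc π σ) Θ) =
      ENNReal.ofReal (4 * ∑ σ, a σ + ∑ i, (2 * c i ^ 2) * (4 * ∑ σ, s i σ)) := by
    simp_rw [c2]
    rw [ENNReal.ofReal_add (mul_nonneg (by norm_num) (Finset.sum_nonneg fun σ _ => ha0 σ))
      (Finset.sum_nonneg fun i _ => mul_nonneg (by positivity)
        (mul_nonneg (by norm_num) (Finset.sum_nonneg fun σ _ => hs0 i σ))),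
      ENNReal.ofReal_mul (by norm_num), ENNReal.ofReal_sum_of_nonneg (fun σ _ => ha0 σ),
      ENNReal.ofReal_sum_of_nonneg (fun i _ => mul_nonneg (by positivity)
        (mul_nonneg (by norm_num) (Finset.sum_nonneg fun σ _ => hs0 i σ))), d4]
    congr 1
    apply Finset.sum_congr rfl
    intro i _
    rw [ENNReal.ofReal_mul (p := 2 * c i ^ 2) (by positivity), ENNReal.ofReal_mul (p := 4) (by norm_num),
      ENNReal.ofReal_sum_of_nonneg (fun σ _ => hs0 i σ)]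
  have R1 : 2 ^ N * (∑ i, ENNReal.ofReal (2 * c i ^ 2 + 2 * ω ^ 2) * EQ X (Q i) Θ +
      rest h π hπ Q Ψ) =
      ENNReal.ofReal (2 ^ N * (∑ i, (2 * c i ^ 2 + 2 * ω ^ 2) * e i + r)) := by
    simp_rw [c1]
    rw [c3, ENNReal.ofReal_mul (by positivity), ENNReal.ofReal_add
      (Finset.sum_nonneg fun i _ => mul_nonneg (by positivity) (he0 i)) hr0,
      ENNReal.ofReal_sum_of_nonneg (fun i _ => mul_nonneg (by positivity) (he0 i)), d2]
    congr 2
    apply Finset.sum_congr rfl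
    intro i _
    rw [ENNReal.ofReal_mul (p := 2 * c i ^ 2 + 2 * ω ^ 2) (by positivity)]
  show 4 * ∑ σ, ENNReal.ofReal (a σ) + _ ≤ _
  rw [L1, R1]
  exact ENNReal.ofReal_le_ofReal main'

end

end Vale.Agent.P148.R2.H203
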