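import Vale.Agent.P148.R2.H258.A9
import Vale.Agent.P148.R2.H203.T2

/-!
# Energy transfer (P148, module T): first moments and second moments of the class of `o`
-/

set_option linter.unusedSectionVars false

open Set Metric Function ComplexConjugate
open scoped ENNReal

namespace Vale.Agent.P148.R2.H203

open H592 H184

section finite

open H258

variable {V D : Type*} (T : Tri V D)

open Classical in
/-- Cauchy-Schwarz for the class of a good dart. -/
theorem EE_sq_le [Fintype V] [Fintype D] {o : D} (ho : T.Good o) (Θ : D → ℂ) :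
    2 ^ Fintype.card V * ‖T.EE o Θ‖ ^ 2 ≤ 4 * ∑ σ : V → Bool, ‖T.cls σ o Θ‖ ^ 2 := by
  set n := Fintype.card V with hn
  set a : (V → Bool) → ℝ := fun σ => if T.Mi σ o then (1 : ℝ) else 0 with ha
  set f : (V → Bool) → ℝ := fun σ => ‖T.cls σ o Θ‖ with hf
  have hmi : 4 * ∑ σ, a σ = 2 ^ n := by
    have := T.four_mul_mi ho
    have h2 : ((4 * (∑ σ : V → Bool, if T.Mi σ o then (1 : ℝ) else 0) : ℝ) : ℂ) =
        ((2 ^ n : ℝ) : ℂ) := by
      push_cast
      refine Eq.trans ?_ this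
      congr 1
      apply Finset.sum_congr rfl
      intro σ _
      split_ifs <;> simp
    exact Complex.ofReal_injective h2
  have hz : ∀ σ, f σ = a σ * f σ := by
    intro σ
    simp only [ha, hf]
    split_ifs with h
    · rw [one_mul]
    · have : T.cls σ o Θ = 0 := by
        unfold Tri.cls
        apply Finset.sum_eq_zero
        intro e _
        rw [if_neg]
        intro hh
        exact h (T.rel_symm hh).1
      rw [this]; simp
  have hcs : (∑ σ, f σ) ^ 2 ≤ (∑ σ, a σ) * ∑ σ, f σ ^ 2 := by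
    have h1 := Finset.sum_mul_sq_le_sq_mul_sq Finset.univ a f
    have h2 : ∑ σ, a σ * f σ = ∑ σ, f σ := Finset.sum_congr rfl fun σ _ => (hz σ).symm
    have h3 : ∑ σ, a σ ^ 2 = ∑ σ, a σ := by
      apply Finset.sum_congr rfl
      intro σ _
      simp only [ha]
      split_ifs <;> simp
    rw [h2, h3] at h1
    exact h1
  have hn0 : (0 : ℝ) < 2 ^ n := by positivity
  have hE : ‖T.EE o Θ‖ ≤ 4 / 2 ^ n * ∑ σ, f σ := by
    rw [T.EE_eq, norm_mul]
    have e1 : ‖(4 : ℂ) / 2 ^ n‖ = 4 / 2 ^ n := by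
      rw [norm_div, norm_pow]; simp
    rw [← hn, e1]
    exact mul_le_mul_of_nonneg_left (norm_sum_le _ _) (by positivity)
  have hS : 0 ≤ ∑ σ, f σ := Finset.sum_nonneg fun σ _ => norm_nonneg _
  have h4 : ‖T.EE o Θ‖ ^ 2 ≤ (4 / 2 ^ n * ∑ σ, f σ) ^ 2 :=
    pow_le_pow_left₀ (norm_nonneg _) hE 2
  calc 2 ^ n * ‖T.EE o Θ‖ ^ 2 ≤ 2 ^ n * (4 / 2 ^ n * ∑ σ, f σ) ^ 2 :=
        mul_le_mul_of_nonneg_left h4 hn0.le
    _ = 16 / 2 ^ n * (∑ σ, f σ) ^ 2 := by field_simp; ring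
    _ ≤ 16 / 2 ^ n * ((∑ σ, a σ) * ∑ σ, f σ ^ 2) :=
        mul_le_mul_of_nonneg_left hcs (by positivity)
    _ = 4 * ∑ σ, f σ ^ 2 := by
        have : ∑ σ, a σ = 2 ^ n / 4 := by linarith
        rw [this]
        field_simp
        ring

/-- The spin one combination of the class probabilities, paired with a spin one weight which
vanishes on the face of `o`, is three times the first moment of the class of `o`. -/
theorem sum_UU [Fintype V] [Fintype D] (hP : T.Planar) {τ : ℂ} (hτ : τ ^ 2 + τ + 1 = 0)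
    {Θ : D → ℂ} (h : ∀ d, Θ (T.nxt d) = τ ^ 2 * Θ d) {o : D} (ho : Θ o = 0) :
    ∑ d, Θ d * T.UU (τ ^ 2) o d = 3 * T.EE o Θ := by
  have h3 := H258.Tri.tau_pow_three hτ
  obtain ⟨h1, h2⟩ := T.EE_rot' hP hτ h ho
  have e : ∑ d, Θ d * T.UU (τ ^ 2) o d = T.EE o Θ + τ ^ 2 * T.EE (T.nxt o) Θ +
      τ ^ 4 * T.EE (T.nxt (T.nxt o)) Θ := by
    unfold Tri.EE Tri.UU
    rw [Finset.mul_sum, Finset.mul_sum, ← Finset.sum_add_distrib, ← Finset.sum_add_distrib]
    apply Finset.sum_congr rfl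
    intro d _
    ring
  rw [e, h1, h2]
  linear_combination (T.EE o Θ * (2 + τ ^ 3)) * h3

/-- A weight and its restriction to good darts have the same moments. -/
theorem cls_good [Fintype D] (hP : T.Planar) {σ : V → Bool} {o : D} (ho : T.Good o)
    {Θ Θ' : D → ℂ} (h : ∀ d, T.Good d → Θ d = Θ' d) : T.cls σ o Θ = T.cls σ o Θ' := by
  classical
  unfold Tri.cls
  apply Finset.sum_congr rfl
  intro e _
  split_ifs with hh
  · exact h e (T.good_of_rel hP (T.rel_symm hh) ho.2.2)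
  · rfl

theorem EE_good [Fintype V] [Fintype D] (hP : T.Planar) {o : D} (ho : T.Good o)
    {Θ Θ' : D → ℂ} (h : ∀ d, T.Good d → Θ d = Θ' d) : T.EE o Θ = T.EE o Θ' := by
  rw [T.EE_eq, T.EE_eq]
  congr 1
  apply Finset.sum_congr rfl
  intro σ _
  exact cls_good T hP ho h

end finite

open Classical in
/-- Sum over all colourings of the vertices of the energy of the local loops of a cell. -/
noncomputable def sSQ {V : Type*} [Fintype V] (π : ℂ → V) (X Q : Set ℂ) (Θ : Dt → ℂ) : ℝ≥0∞ :=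
  ∑ σ : V → Bool, SQ X Q (pc π σ) Θ

open Classical in
/-- **Energy transfer** for the local loops of the plane and the first moment of the class of a good
dart. -/
theorem transfer_EE {X : Set ℂ} {b : ZMod 3 → ℂ} (h : HullTri X b) {V : Type*} [Fintype V]
    (π : ℂ → V) (hπ : Fib X π) [Fintype (Fc X b × ZMod 3)] {τ : ℂ} (hτ : τ ^ 2 + τ + 1 = 0)
    {Θ : Dt → ℂ} (hΘ : ∀ d, Θ (rt d) = τ ^ 2 * Θ d)
    {ι : Type*} [Fintype ι] (Q : ι → Set ℂ) (hQ : Pairwise fun i j => Disjoint (Q i) (Q j))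
    (hF : ∀ i, Faith X (Q i) π) (o : Fc X b × ZMod 3) (hgo : (h.tri258 π hπ).Good o)
    (ho : ∀ i, ¬ LF X (Q i) (dt o))
    (χ : Dt → ℝ) (hχ : ∀ d, χ (rt d) = χ d) (c : ι → ℝ) {ω : ℝ}
    (hω : ∀ i d, LF X (Q i) d → |χ d - c i| ≤ ω) :
    2 ^ Fintype.card V * ENNReal.ofReal
      (‖(h.tri258 π hπ).EE o (fun q => (χ (dt q) : ℂ) * Θ (dt q))‖ ^ 2) +
      ∑ i, ENNReal.ofReal (2 * c i ^ 2) * (4 * sSQ π X (Q i) Θ) ≤
    2 ^ Fintype.card V * (∑ i, ENNReal.ofReal (2 * c i ^ 2 + 2 * ω ^ 2) * EQ X (Q i) Θ +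
      rest h π hπ Q (fun d => (χ d : ℂ) * Θ d)) := by
  have main := transfer_plane h π hπ hτ hΘ Q hQ hF o ho χ hχ c hω
  refine le_trans (add_le_add ?_ le_rfl) main
  have h1 := EE_sq_le (h.tri258 π hπ) hgo (fun q => (χ (dt q) : ℂ) * Θ (dt q))
  have h2 : ∀ σ, (h.tri258 π hπ).cls σ o (fun q => (χ (dt q) : ℂ) * Θ (dt q)) =
      (h.tri258 π hπ).cls σ o (wt h π hπ (fun d => (χ d : ℂ) * Θ d)) := by
    intro σ
    apply cls_good (h.tri258 π hπ) (h.planar258 π hπ) hgo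
    intro d hd
    unfold wt
    rw [if_pos hd]
  simp only [h2] at h1
  have d4 : (4 : ℝ≥0∞) = ENNReal.ofReal 4 := by norm_num
  have d2 : (2 : ℝ≥0∞) ^ Fintype.card V = ENNReal.ofReal (2 ^ Fintype.card V) := by
    rw [ENNReal.ofReal_pow (by norm_num)]; norm_num
  rw [d2, d4, ← ENNReal.ofReal_mul (by positivity),
    ← ENNReal.ofReal_sum_of_nonneg (fun σ _ => by positivity), ← ENNReal.ofReal_mul (by norm_num)]
  exact ENNReal.ofReal_le_ofReal h1

end Vale.Agent.P148.R2.H203
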