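import Vale.Agent.P148.R2.F.Obs
import Vale.Agent.P148.R2.H203.T4a

/-!
# Energy transfer (P148, module T): discrete three-arc domains

`Usum_transfer`: quenched bound of the weighted sum of a discrete three-arc domain by the energy
which is missing from the local loops of the cells.
-/

set_option linter.unusedSectionVars false

open Set Metric Function ComplexConjugate
open scoped ENNReal

namespace Vale.Agent.P148.R2.H203

open H592 H184
open Vale.Agent.P148.R2.F (Dom)
open Vale.Agent.P148.R2.H219 (tau)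

theorem tau_root : tau ^ 2 + tau + 1 = 0 := by
  rw [H219.tau_sq]
  unfold tau
  apply Complex.ext
  · show -(1 / 2 : ℝ) + -(1 / 2) + 1 = 0
    norm_num
  · show -(Real.sqrt 3 / 2) + Real.sqrt 3 / 2 + 0 = 0
    ring

/-- The spin one weight of the plane. -/
noncomputable def pd (d : Dt) : ℂ := d.1 + tau * d.2.1 + tau ^ 2 * d.2.2

/-- The centre of a face of the plane. -/
noncomputable def cd (d : Dt) : ℂ := (d.1 + d.2.1 + d.2.2) / 3

theorem pd_rt (d : Dt) : pd (rt d) = tau ^ 2 * pd d := by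
  have h3 : tau ^ 3 = 1 := H258.Tri.tau_pow_three tau_root
  unfold pd rt
  linear_combination (-(d.2.1) - tau * d.2.2) * h3

theorem cd_rt (d : Dt) : cd (rt d) = cd d := by
  unfold cd rt
  ring

section

variable (D : Dom)

/-- All the corners of a dart of the plane are free. -/
def Fr (d : Dt) : Prop := D.Free d.1 ∧ D.Free d.2.1 ∧ D.Free d.2.2

theorem Fr_rt {d : Dt} : Fr D (rt d) ↔ Fr D d := by
  unfold Fr rt
  tauto

theorem fib : Fib D.X (cmap D.X D.O) := fib_cmap D.disj D.conn D.ne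

open Classical in
/-- Restriction of a function of the centre to the faces with free corners. -/
noncomputable def cf (χ : ℂ → ℝ) (d : Dt) : ℝ := if Fr D d then χ (cd d) else 0

theorem cf_rt (χ : ℂ → ℝ) (d : Dt) : cf D χ (rt d) = cf D χ d := by
  unfold cf
  by_cases h : Fr D d
  · rw [if_pos h, if_pos ((Fr_rt D).2 h), cd_rt]
  · rw [if_neg h, if_neg (fun h' => h ((Fr_rt D).1 h'))]

theorem not_free {j : ZMod 3} {x : ℂ} (h : x ∈ D.O j) : ¬ D.Free x := fun hf => hf.2 j h

theorem cf_o (χ : ℂ → ℝ) : cf D χ (dt D.o) = 0 := by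
  unfold cf
  rw [if_neg]
  rintro ⟨-, h, -⟩
  exact not_free D D.head_o h

/-- Points of a cell are free: then the contraction is faithful in the cell. -/
theorem faith {Q : Set ℂ} (hQ : ∀ x ∈ D.X, x ∈ Q → D.Free x) : Faith D.X Q (cmap D.X D.O) := by
  intro x hx hxQ y hy hxy
  have hf := hQ x hx hxQ
  rw [cmap_of_free hf.1 hf.2] at hxy
  exact (eq_of_cmap hxy.symm).symm

theorem p_eq (q : D.Dt) : D.p q = pd (dt q) := rfl

theorem ctr_eq (q : D.Dt) : D.ctr q.1 = cd (dt q) := by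
  obtain ⟨t, j⟩ := q
  have h3 : j = 0 ∨ j = 1 ∨ j = 2 := by revert j; decide
  unfold Dom.ctr cd dt tail head
  rcases h3 with rfl | rfl | rfl
  · show _ = (vc t 1 + vc t 2 + vc t 0) / 3
    ring
  · show _ = (vc t 2 + vc t 0 + vc t 1) / 3
    ring
  · show _ = (vc t 0 + vc t 1 + vc t 2) / 3
    ring

theorem Fr_eq (q : D.Dt) : Fr D (dt q) ↔ ∀ j, D.Free (vc q.1 j) := by
  obtain ⟨t, j⟩ := q
  have key : ∀ i j : ZMod 3, i = j + 1 ∨ i = j + 2 ∨ i = j := by decide
  unfold Fr dt tail head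
  constructor
  · rintro ⟨h1, h2, h4⟩ i
    rcases key i j with rfl | rfl | rfl
    · exact h1
    · exact h2
    · exact h4
  · intro h
    exact ⟨h _, h _, h _⟩

/-- The weighted sum is a first moment of the class of `o`. -/
theorem Usum_eq (χ : ℂ → ℝ) :
    D.Usum χ = D.T.EE D.o (fun q => (cf D χ (dt q) : ℂ) * pd (dt q)) := by
  classical
  have hτ := tau_root
  have h3 : tau ^ 3 = 1 := H258.Tri.tau_pow_three hτ
  set Θ : D.Dt → ℂ := fun q => (cf D χ (dt q) : ℂ) * pd (dt q) with hΘ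
  have hnx : ∀ q : D.Dt, dt (D.T.nxt q) = rt (dt q) := fun q => dt_next q
  have hrot : ∀ q, Θ (D.T.nxt q) = tau ^ 2 * Θ q := by
    intro q
    simp only [hΘ]
    rw [hnx, cf_rt, pd_rt]; ring
  have ho : Θ D.o = 0 := by
    simp only [hΘ]
    rw [cf_o]; simp
  have key := sum_UU D.T D.planar hτ hrot ho
  -- the sum over darts is three times the sum over faces
  set F : D.Dt → ℂ := fun q => Θ q * D.T.UU (tau ^ 2) D.o q with hF
  have hΘo : ∀ q, D.T.InFace D.o q → Θ q = 0 := by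
    intro q hq
    rcases hq with rfl | rfl | rfl
    · exact ho
    · rw [hrot, ho, mul_zero]
    · rw [hrot, hrot, ho, mul_zero, mul_zero]
  have hτ2 : (tau ^ 2) ^ 2 + tau ^ 2 + 1 = 0 := by
    linear_combination hτ + tau * h3
  have hFn : ∀ q, F (D.T.nxt q) = F q := by
    intro q
    simp only [hF]
    by_cases hq : D.T.InFace D.o q
    · rw [hΘo q hq, hΘo _ (D.T.inFace_nxt.2 hq)]; simp
    · have hq' := hq
      unfold H258.Tri.InFace at hq'
      push Not at hq'
      rw [D.T.UU_nxt D.planar hτ2 hq'.1 hq'.2.1 hq'.2.2, hrot]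
      linear_combination (Θ q * D.T.UU (tau ^ 2) D.o q * (tau ^ 3 + 1)) * h3
  have hsum : ∑ q, F q = 3 * ∑ t : Fc D.X D.b, F (t, 0) := by
    rw [Fintype.sum_prod_type, Finset.mul_sum]
    apply Finset.sum_congr rfl
    intro t _
    have h1 : F (t, 1) = F (t, 0) := hFn (t, 0)
    have h2 : F (t, 2) = F (t, 1) := hFn (t, 1)
    have h4 : ∑ j : ZMod 3, F (t, j) = F (t, 0) + F (t, 1) + F (t, 2) := Fin.sum_univ_three _
    rw [h4, h2, h1]; ring
  have hU : D.Usum χ = ∑ t : Fc D.X D.b, F (t, 0) := by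
    unfold Dom.Usum
    apply Finset.sum_congr rfl
    intro t _
    simp only [hF, hΘ]
    unfold cf
    have e1 := Fr_eq D (t, 0)
    have e2 := ctr_eq D (t, 0)
    by_cases hfr : ∀ j, D.Free (vc t j)
    · rw [if_pos hfr, if_pos (e1.2 hfr), ← e2]
      rfl
    · rw [if_neg hfr, if_neg (fun h => hfr (e1.1 h))]
      simp
  have : (3 : ℂ) * D.Usum χ = 3 * D.T.EE D.o Θ := by
    rw [hU, ← hsum]; exact key
  exact mul_left_cancel₀ (by norm_num) this

/-- **Quenched transfer** for a discrete three-arc domain. -/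
theorem Usum_transfer (χ : ℂ → ℝ) {ι : Type*} [Fintype ι] (Q : ι → Set ℂ)
    (hQ : Pairwise fun i j => Disjoint (Q i) (Q j)) (hF : ∀ i, ∀ x ∈ D.X, x ∈ Q i → D.Free x)
    (c : ι → ℝ) {ω : ℝ} (hω : ∀ i d, LF D.X (Q i) d → |χ (cd d) - c i| ≤ ω) :
    2 ^ Fintype.card D.V * ENNReal.ofReal (‖D.Usum χ‖ ^ 2) +
      ∑ i, ENNReal.ofReal (2 * c i ^ 2) * (4 * sSQ (cmap D.X D.O) D.X (Q i) pd) ≤
    2 ^ Fintype.card D.V * (∑ i, ENNReal.ofReal (2 * c i ^ 2 + 2 * ω ^ 2) * EQ D.X (Q i) pd +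
      rest D.hull (cmap D.X D.O) (fib D) Q (fun d => (cf D χ d : ℂ) * pd d)) := by
  have hcell : ∀ i d, LF D.X (Q i) d → Fr D d := fun i d hd =>
    ⟨hF i _ hd.1.1 hd.mem.1, hF i _ hd.1.2.1 hd.mem.2.1, hF i _ hd.1.2.2 hd.mem.2.2⟩
  rw [Usum_eq]
  exact transfer_EE D.hull (cmap D.X D.O) (fib D) tau_root pd_rt Q hQ
    (fun i => faith D (hF i)) D.o D.good_o (fun i hi => not_free D D.head_o (hcell i _ hi).2.1)
    (cf D χ) (cf_rt D χ) c (ω := ω) (fun i d hd => by
      unfold cf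
      rw [if_pos (hcell i d hd)]
      exact hω i d hd)

end

end Vale.Agent.P148.R2.H203
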