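import Vale.Agent.P148.R2.H203.T5
import Vale.Agent.P148.R2.H203.T2

/-!
# The rest term of the energy transfer in a triangulation (P148, module T)
-/

set_option linter.unusedSectionVars false

open Set Metric Function
open scoped ENNReal

namespace Vale.Agent.P148.R2.H203

open _root_.P148
open H592 H184
open H291 (gp)

/-- The rest term of a triangulation is bounded by the energy of the faces of the configuration
which are in no square of the grid. -/
theorem RSdom {X : Set ℂ} {b : ZMod 3 → ℂ} (h : HullTri X b) {V : Type*} (π : ℂ → V)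
    (hπ : Fib X π) [Fintype (Fc X b × ZMod 3)] {T : Set Pt} {l R C : ℝ} (I : Finset (ℤ × ℤ))
    (Θ : Dt → ℂ) (χ : Dt → ℝ) (hC : ∀ d, |χ d| ≤ C)
    (h1 : ∀ q : Fc X b × ZMod 3, χ (dt q) ≠ 0 → LF (pts T) univ (dt q) ∧ cc (dt q) ∈ ball 0 R)
    (h2 : ∀ (q : Fc X b × ZMod 3) (z : ℤ × ℤ), χ (dt q) ≠ 0 →
      LF (pts T) (sqr (gp l z) l) (dt q) → z ∈ I ∧ LF X (sqr (gp l z) l) (dt q)) :
    rest h π hπ (fun z : I => sqr (gp l z.1) l) (fun d => (χ d : ℂ) * Θ d) ≤
      ENNReal.ofReal (C ^ 2) * RS Θ l R T := by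
  classical
  have hC0 : 0 ≤ C := (abs_nonneg _).trans (hC (0, 0, 0))
  unfold RS
  rw [← ENNReal.tsum_mul_left]
  set F : Dt → ℝ≥0∞ := fun d => ENNReal.ofReal (C ^ 2) *
    (if LF (pts T) univ d ∧ cc d ∈ ball 0 R ∧
      ¬ ∃ z : ℤ × ℤ, LF (pts T) (sqr (gp l z) l) d then ENNReal.ofReal (‖Θ d‖ ^ 2) else 0) with hF
  calc rest h π hπ (fun z : I => sqr (gp l z.1) l) (fun d => (χ d : ℂ) * Θ d)
      ≤ ∑ q : Fc X b × ZMod 3, F (dt q) := by
        unfold rest
        refine Finset.sum_le_sum fun q _ => ?_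
        split_ifs with hq
        · exact bot_le
        · unfold wt
          split_ifs with hg
          · by_cases hχ : χ (dt q) = 0
            · simp [hχ]
            · obtain ⟨a1, a2⟩ := h1 q hχ
              have a3 : ¬ ∃ z : ℤ × ℤ, LF (pts T) (sqr (gp l z) l) (dt q) := by
                rintro ⟨z, hz⟩
                obtain ⟨b1, b2⟩ := h2 q z hχ hz
                exact hq ⟨⟨z, b1⟩, b2⟩
              simp only [hF]
              rw [if_pos ⟨a1, a2, a3⟩, ← ENNReal.ofReal_mul (by positivity)]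
              refine ENNReal.ofReal_le_ofReal ?_
              rw [norm_mul, mul_pow, Complex.norm_real, Real.norm_eq_abs]
              gcongr
              exact hC _
          · simp
    _ = ∑' q : Fc X b × ZMod 3, F (dt q) := (tsum_fintype _).symm
    _ ≤ ∑' d, F d := ENNReal.tsum_comp_le_tsum_of_injective (dt_injective h) F

end Vale.Agent.P148.R2.H203
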