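import Vale.Agent.P148.R2.H184.L9
import Vale.Agent.P148.R2.F.Whp

/-!
# The faces which cross the lines of a grid carry little energy (P148, module T)
-/

set_option linter.unusedSectionVars false

open MeasureTheory Set Metric Topology Filter ProbabilityTheory
open scoped ENNReal NNReal

namespace Vale.Agent.P148.R2.H203

open _root_.P148
open H592 (vcell Three)
open H184
open H291 (gp Stab)
open Vale.Agent.P148.R2.F (whp)

universe u

open Classical in
/-- The energy of the faces with centre in the disc of radius `R` which are in no open square of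
the grid of side `l`. -/
noncomputable def RS (Θ : Dt → ℂ) (l R : ℝ) (T : Set Pt) : ℝ≥0∞ :=
  ∑' d : Dt, if LF (pts T) univ d ∧ cc d ∈ ball 0 R ∧
    ¬ ∃ z : ℤ × ℤ, LF (pts T) (sqr (gp l z) l) d then ENNReal.ofReal (‖Θ d‖ ^ 2) else 0

/-! ### deterministic part -/

theorem floor_spec {l : ℝ} (hl : 0 < l) (t : ℝ) : l * ⌊t / l⌋ ≤ t ∧ t < l * ⌊t / l⌋ + l := by
  have h1 := Int.floor_le (t / l)
  have h2 := Int.lt_floor_add_one (t / l)
  rw [le_div_iff₀ hl] at h1
  rw [div_lt_iff₀ hl] at h2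
  constructor
  · linarith
  · linarith

/-- A face which is in no square is next to a line of the grid. -/
theorem near_line {X : Set ℂ} {l w : ℝ} (hl : 0 < l) {d : Dt} (hd : LF X univ d)
    (hn : ¬ ∃ z : ℤ × ℤ, LF X (sqr (gp l z) l) d) (hw : dist (cc d) d.1 ≤ w) :
    (∃ k : ℤ, |(cc d).re - l * k| ≤ w) ∨ ∃ k : ℤ, |(cc d).im - l * k| ≤ w := by
  by_contra hcon
  push Not at hcon
  obtain ⟨hre, him⟩ := hcon
  apply hn
  refine ⟨(⌊(cc d).re / l⌋, ⌊(cc d).im / l⌋), hd.1, hd.2.1, ?_, hd.2.2.2⟩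
  obtain ⟨r1, r2⟩ := floor_spec hl (cc d).re
  obtain ⟨i1, i2⟩ := floor_spec hl (cc d).im
  have a1 := hre ⌊(cc d).re / l⌋
  have a2 := hre (⌊(cc d).re / l⌋ + 1)
  have b1 := him ⌊(cc d).im / l⌋
  have b2 := him (⌊(cc d).im / l⌋ + 1)
  push_cast at a2 b2
  rw [abs_of_nonneg (by linarith)] at a1 b1
  rw [abs_of_nonpos (by linarith)] at a2 b2
  intro y hy
  rw [mem_closedBall] at hy
  have hy' : dist y (cc d) ≤ w := hy.trans hw
  rw [dist_eq_norm] at hy'
  have e1 : |y.re - (cc d).re| ≤ w := by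
    have := Complex.abs_re_le_norm (y - cc d)
    rw [Complex.sub_re] at this
    exact this.trans hy'
  have e2 : |y.im - (cc d).im| ≤ w := by
    have := Complex.abs_im_le_norm (y - cc d)
    rw [Complex.sub_im] at this
    exact this.trans hy'
  rw [abs_le] at e1 e2
  show (l * (⌊(cc d).re / l⌋ : ℝ) < y.re ∧ y.re < l * (⌊(cc d).re / l⌋ : ℝ) + l) ∧
    (l * (⌊(cc d).im / l⌋ : ℝ) < y.im ∧ y.im < l * (⌊(cc d).im / l⌋ : ℝ) + l)
  refine ⟨⟨?_, ?_⟩, ?_, ?_⟩ <;> linarith [e1.1, e1.2, e2.1, e2.2]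

/-- Points on the lines of the grid. -/
noncomputable def lp (l w : ℝ) (g : Bool × ℤ × ℤ) : ℂ :=
  if g.1 then ⟨l * g.2.1, w * g.2.2⟩ else ⟨w * g.2.2, l * g.2.1⟩

/-- The indices of the points which are used. -/
noncomputable def lidx (K J : ℕ) : Finset (Bool × ℤ × ℤ) :=
  Finset.univ ×ˢ (Finset.Icc (-(K : ℤ)) K ×ˢ Finset.Icc (-(J : ℤ)) J)

theorem card_lidx (K J : ℕ) : (lidx K J).card = 2 * ((2 * K + 1) * (2 * J + 1)) := by
  unfold lidx
  rw [Finset.card_product, Finset.card_product, Int.card_Icc, Int.card_Icc, Finset.card_univ,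
    Fintype.card_bool]
  have e : ∀ K : ℕ, ((K : ℤ) + 1 - -(K : ℤ)).toNat = 2 * K + 1 := by
    intro K; omega
  rw [e, e]

theorem cover_aux {l w R : ℝ} (hl : 0 < l) (hw : 0 < w) {K J : ℕ} (hK : (R + w) / l ≤ K)
    (hJ : R / w + 1 ≤ J) {x y : ℝ} (hx : |x| < R) (hy : |y| < R) {k : ℤ} (hk : |x - l * k| ≤ w) :
    ∃ j : ℤ, k ∈ Finset.Icc (-(K : ℤ)) K ∧ j ∈ Finset.Icc (-(J : ℤ)) J ∧ |y - w * j| ≤ w / 2 := by
  refine ⟨round (y / w), ?_, ?_, ?_⟩
  · have h1 : l * |(k : ℝ)| ≤ R + w := by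
      have h2 : l * (k : ℝ) = x - (x - l * k) := by ring
      calc l * |(k : ℝ)| = |l * (k : ℝ)| := by rw [abs_mul, abs_of_pos hl]
        _ = |x - (x - l * k)| := by rw [← h2]
        _ ≤ |x| + |x - l * k| := abs_sub _ _
        _ ≤ R + w := by linarith
    have h2 : |(k : ℝ)| ≤ K := by
      refine le_trans ?_ hK
      rw [le_div_iff₀ hl]
      linarith
    have h3 : |k| ≤ (K : ℤ) := by
      have : ((|k| : ℤ) : ℝ) ≤ ((K : ℤ) : ℝ) := by push_cast; exact h2
      exact_mod_cast this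
    rw [Finset.mem_Icc]
    exact abs_le.1 h3
  · have h1 : |(round (y / w) : ℝ)| ≤ J := by
      have h2 := abs_sub_round (y / w)
      have h3 : |y / w| ≤ R / w := by
        rw [abs_div, abs_of_pos hw]
        gcongr
      have h4 : |(round (y / w) : ℝ)| ≤ |y / w| + |y / w - round (y / w)| := by
        have : (round (y / w) : ℝ) = y / w - (y / w - round (y / w)) := by ring
        calc |(round (y / w) : ℝ)| = |y / w - (y / w - round (y / w))| := by rw [← this]
          _ ≤ _ := abs_sub _ _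
      linarith
    have h3 : |round (y / w)| ≤ (J : ℤ) := by
      have : ((|round (y / w)| : ℤ) : ℝ) ≤ ((J : ℤ) : ℝ) := by push_cast; exact h1
      exact_mod_cast this
    rw [Finset.mem_Icc]
    exact abs_le.1 h3
  · have h1 := abs_sub_round (y / w)
    have h2 : y - w * round (y / w) = w * (y / w - round (y / w)) := by
      field_simp
    rw [h2, abs_mul, abs_of_pos hw]
    nlinarith

/-- A face which is in no square is in one of the discs. -/
theorem cover {X : Set ℂ} {l w R : ℝ} (hl : 0 < l) (hw : 0 < w) {K J : ℕ} (hK : (R + w) / l ≤ K)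
    (hJ : R / w + 1 ≤ J) {d : Dt} (hd : LF X univ d) (hR : cc d ∈ ball 0 R)
    (hn : ¬ ∃ z : ℤ × ℤ, LF X (sqr (gp l z) l) d) (hr : dist (cc d) d.1 ≤ w) :
    ∃ g ∈ lidx K J, LF X (closedBall (lp l w g) (3 * w)) d := by
  have hnorm : ‖cc d‖ < R := by simpa using hR
  have hre : |(cc d).re| < R := (Complex.abs_re_le_norm _).trans_lt hnorm
  have him : |(cc d).im| < R := (Complex.abs_im_le_norm _).trans_lt hnorm
  have fin : ∀ g ∈ lidx K J, dist (cc d) (lp l w g) ≤ 2 * w →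
      ∃ g ∈ lidx K J, LF X (closedBall (lp l w g) (3 * w)) d := by
    intro g hg hdg
    refine ⟨g, hg, hd.1, hd.2.1, ?_, hd.2.2.2⟩
    exact closedBall_subset_closedBall' (by linarith)
  have hdist : ∀ c : ℂ, dist (cc d) c ≤ |(cc d).re - c.re| + |(cc d).im - c.im| := by
    intro c
    rw [dist_eq_norm]
    have := Complex.norm_le_abs_re_add_abs_im (cc d - c)
    rwa [Complex.sub_re, Complex.sub_im] at this
  rcases near_line hl hd hn hr with ⟨k, hk⟩ | ⟨k, hk⟩
  · obtain ⟨j, h1, h2, h3⟩ := cover_aux hl hw hK hJ hre him hk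
    refine fin (true, k, j) ?_ ((hdist _).trans ?_)
    · unfold lidx
      exact Finset.mem_product.2 ⟨Finset.mem_univ _, Finset.mem_product.2 ⟨h1, h2⟩⟩
    · have e1 : (lp l w (true, k, j)).re = l * k := rfl
      have e2 : (lp l w (true, k, j)).im = w * j := rfl
      rw [e1, e2]
      linarith
  · obtain ⟨j, h1, h2, h3⟩ := cover_aux hl hw hK hJ him hre hk
    refine fin (false, k, j) ?_ ((hdist _).trans ?_)
    · unfold lidx
      exact Finset.mem_product.2 ⟨Finset.mem_univ _, Finset.mem_product.2 ⟨h1, h2⟩⟩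
    · have e1 : (lp l w (false, k, j)).re = w * j := rfl
      have e2 : (lp l w (false, k, j)).im = l * k := rfl
      rw [e1, e2]
      linarith

/-- The energy of the faces which cross the grid is at most the sum of the energies of the local
faces of discs of radius `3 w` on the lines of the grid. -/
theorem RS_le (Θ : Dt → ℂ) {l w R : ℝ} (hl : 0 < l) (hw : 0 < w) {K J : ℕ}
    (hK : (R + w) / l ≤ K) (hJ : R / w + 1 ≤ J) {T : Set Pt}
    (hst : ∀ z ∈ closedBall (0 : ℂ) R, Stab (pts T) z w) :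
    RS Θ l R T ≤ ∑ g ∈ lidx K J, EQ (pts T) (closedBall (lp l w g) (3 * w)) Θ := by
  classical
  unfold RS EQ
  rw [← Summable.tsum_finsetSum (fun _ _ => ENNReal.summable)]
  refine ENNReal.tsum_le_tsum fun d => ?_
  split_ifs with h
  · obtain ⟨h1, h2, h3⟩ := h
    have hr : dist (cc d) d.1 ≤ w := by
      have h4 := (hst (cc d) (ball_subset_closedBall h2)).dist_le (y := cc d) (v := d.1)
        (mem_closedBall_self (by positivity)) h1.mem_vcell.1
      linarith
    obtain ⟨g, hg, hgd⟩ := cover hl hw hK hJ h1 h2 h3 hr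
    calc ENNReal.ofReal (‖Θ d‖ ^ 2) = if LF (pts T) (closedBall (lp l w g) (3 * w)) d then
          ENNReal.ofReal (‖Θ d‖ ^ 2) else 0 := by rw [if_pos hgd]
      _ ≤ _ := Finset.single_le_sum (f := fun g => if LF (pts T) (closedBall (lp l w g) (3 * w)) d
          then ENNReal.ofReal (‖Θ d‖ ^ 2) else 0) (fun _ _ => bot_le) hg
  · exact bot_le

/-! ### expectations -/

section
variable {Ω : Type*} [MeasurableSpace Ω] {P : Measure Ω} {S : Ω → Set Pt} {lam : ℝ≥0}

theorem ae_EQ_le [IsProbabilityMeasure P] (h : IsColouredPoisson P S lam) {a : ℝ}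
    (ha : 0 < a) (hla : lam * a ^ 2 = 1) {τ : ℂ} {κ : ℝ} {Θ : Dt → ℂ} (hΘ : Wt τ κ Θ) :
    ∀ᵐ ω ∂P, ∀ (x : ℂ) (r : ℝ), EQ (pts (S ω)) (closedBall x r) Θ ≤
      27 * ENNReal.ofReal (κ ^ 2) * H291.enMaj S a 2 x r ω := by
  filter_upwards [ae_three h, H291.ae_levels h ha hla, H291.ae_en_le h ha hla]
    with ω h3 hlev hen x r
  have hst : ∀ z, ∃ s, 0 < s ∧ H291.Stab (pts (S ω)) z s := by
    intro z
    obtain ⟨k, hk1, hk2⟩ := hlev (H291.rd a z)
    have hk1' : (1 : ℝ) ≤ k := by exact_mod_cast hk1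
    have hka : 0 < k * a := by positivity
    refine ⟨3 / 4 * (k * a), by positivity, hk2.stab hka ?_⟩
    exact (H291.dist_gp_rd ha z).trans (le_mul_of_one_le_left ha.le hk1')
  refine (EQ_le h3 hst subset_rfl hΘ).trans ?_
  gcongr
  exact hen 2 x r

/-- Markov's inequality for sums of energies of discs. -/
theorem markov_discs [IsProbabilityMeasure P] (h : IsColouredPoisson P S lam) {a : ℝ}
    (ha : 0 < a) (hla : lam * a ^ 2 = 1) {τ : ℂ} {κ : ℝ} {Θ : Dt → ℂ} (hΘ : Wt τ κ Θ)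
    {ι : Type*} (s : Finset ι) (x : ι → ℂ) {r : ℝ} (hr : a ≤ r) {η : ℝ} (hη : 0 < η) :
    P {ω | ENNReal.ofReal η ≤ ∑ g ∈ s, EQ (pts (S ω)) (closedBall (x g) r) Θ} ≤
      ENNReal.ofReal (s.card * (KK κ * r ^ 2) / η) := by
  set G : Ω → ℝ≥0∞ := fun ω => ∑ g ∈ s, 27 * ENNReal.ofReal (κ ^ 2) *
    H291.enMaj S a 2 (x g) r ω with hG
  have hGm : Measurable G := Finset.measurable_fun_sum _ fun g _ =>
    (H291.measurable_enMaj h a 2 (x g) r).const_mul _
  have h27 : (27 * ENNReal.ofReal (κ ^ 2) : ℝ≥0∞) ≠ ⊤ :=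
    ENNReal.mul_ne_top (by norm_num) ENNReal.ofReal_ne_top
  have hint : ∫⁻ ω, G ω ∂P ≤ ENNReal.ofReal (s.card * (KK κ * r ^ 2)) := by
    rw [hG, lintegral_finsetSum _ fun g _ => (H291.measurable_enMaj h a 2 (x g) r).const_mul _]
    have e1 : ∀ g, ∫⁻ ω, 27 * ENNReal.ofReal (κ ^ 2) * H291.enMaj S a 2 (x g) r ω ∂P ≤
        ENNReal.ofReal (KK κ * r ^ 2) := by
      intro g
      calc ∫⁻ ω, 27 * ENNReal.ofReal (κ ^ 2) * H291.enMaj S a 2 (x g) r ω ∂P
          = 27 * ENNReal.ofReal (κ ^ 2) * ∫⁻ ω, H291.enMaj S a 2 (x g) r ω ∂P :=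
            lintegral_const_mul' _ _ h27
        _ ≤ 27 * ENNReal.ofReal (κ ^ 2) * ENNReal.ofReal (25 * H291.CC 2 3 * r ^ 2) := by
            gcongr
            exact H291.lint_enMaj_two h ha hla (x g) hr
        _ = ENNReal.ofReal (KK κ * r ^ 2) := by
            have h27' : (27 : ℝ≥0∞) = ENNReal.ofReal 27 := by norm_num
            have := H291.CC_nonneg 2 3
            rw [h27', ← ENNReal.ofReal_mul (by norm_num), ← ENNReal.ofReal_mul (by positivity)]
            congr 1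
            unfold KK
            ring
    refine (Finset.sum_le_sum fun g _ => e1 g).trans ?_
    rw [Finset.sum_const, nsmul_eq_mul, ENNReal.ofReal_mul (Nat.cast_nonneg _),
      ENNReal.ofReal_natCast]
  have hsub : P {ω | ENNReal.ofReal η ≤ ∑ g ∈ s, EQ (pts (S ω)) (closedBall (x g) r) Θ} ≤
      P {ω | ENNReal.ofReal η ≤ G ω} := by
    refine measure_mono_ae ?_
    filter_upwards [ae_EQ_le h ha hla hΘ] with ω hω hle
    exact le_trans hle (Finset.sum_le_sum fun g _ => hω (x g) r)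
  refine hsub.trans ?_
  have hη' : ENNReal.ofReal η ≠ 0 := by
    rw [Ne, ENNReal.ofReal_eq_zero]; linarith
  calc P {ω | ENNReal.ofReal η ≤ G ω} ≤ (∫⁻ ω, G ω ∂P) / ENNReal.ofReal η :=
        meas_ge_le_lintegral_div hGm.aemeasurable hη' ENNReal.ofReal_ne_top
    _ ≤ ENNReal.ofReal (s.card * (KK κ * r ^ 2)) / ENNReal.ofReal η := by gcongr
    _ = _ := by rw [← ENNReal.ofReal_div_of_pos hη]

end

/-! ### the limit -/

/-- The faces which cross the grid carry little energy, with high probability. -/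
theorem rest_whp {τ : ℂ} {κ : ℝ} {Θ : Dt → ℂ} (hΘ : Wt τ κ Θ) {l : ℝ} (hl : 0 < l) (R : ℝ)
    {η : ℝ} (hη : 0 < η) : ∀ᶠ m in whp.{u}, RS Θ l R m.2 ≤ ENNReal.ofReal η := by
  rw [F.eventually_whp]
  intro Ω _ P _ S hS
  by_cases hR : 0 ≤ R
  swap
  · have h0 : ∀ ε, {ω | ¬ RS Θ l R (ε, S ε ω).2 ≤ ENNReal.ofReal η} = ∅ := by
      intro ε
      rw [eq_empty_iff_forall_notMem]
      intro ω hω
      apply hω
      unfold RS
      have : ∀ d : Dt, cc d ∉ ball (0 : ℂ) R := by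
        intro d hd
        rw [ball_eq_empty.2 (by linarith)] at hd
        exact hd
      simp [this]
    simp only [h0, measure_empty]
    exact tendsto_const_nhds
  have hKK := KK_nonneg κ
  -- the constant
  set A : ℝ := 2 * (2 * ((R + 1) / l + 1) + 1) * (2 * R + 7) * (9 * KK κ) / η with hA
  have hA0 : 0 ≤ A := by positivity
  rw [ENNReal.tendsto_nhds_zero]
  intro δ hδ
  obtain ⟨δ', hδ'0, hδ'⟩ : ∃ δ' : ℝ, 0 < δ' ∧ ENNReal.ofReal (2 * δ') ≤ δ := by
    rcases eq_or_ne δ ⊤ with h | h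
    · exact ⟨1, one_pos, by rw [h]; exact le_top⟩
    · refine ⟨δ.toReal / 2, by have := ENNReal.toReal_pos hδ.ne' h; linarith, ?_⟩
      rw [mul_div_cancel₀ _ (two_ne_zero), ENNReal.ofReal_toReal h]
  obtain ⟨w, hw0, hw1, hwA⟩ : ∃ w : ℝ, 0 < w ∧ w ≤ 1 ∧ A * w ≤ δ' := by
    refine ⟨min 1 (δ' / (A + 1)), by positivity, min_le_left _ _, ?_⟩
    calc A * min 1 (δ' / (A + 1)) ≤ (A + 1) * (δ' / (A + 1)) := by
          gcongr
          · linarith
          · exact min_le_right _ _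
      _ = δ' := by field_simp
  set K : ℕ := ⌈(R + w) / l⌉₊ with hKdef
  set J : ℕ := ⌈R / w + 1⌉₊ with hJdef
  have hK : (R + w) / l ≤ K := Nat.le_ceil _
  have hJ : R / w + 1 ≤ J := Nat.le_ceil _
  have hK' : (K : ℝ) ≤ (R + 1) / l + 1 := by
    have h1 := (Nat.ceil_lt_add_one (a := (R + w) / l) (by positivity)).le
    have h2 : (R + w) / l ≤ (R + 1) / l := by gcongr
    exact h1.trans (by linarith)
  have hJ' : (J : ℝ) ≤ R / w + 2 := by
    have h1 := (Nat.ceil_lt_add_one (a := R / w + 1) (by positivity)).le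
    linarith
  have hbound : ((lidx K J).card : ℝ) * (KK κ * (3 * w) ^ 2) / η ≤ δ' := by
    refine le_trans ?_ hwA
    rw [card_lidx, hA]
    push_cast
    have h1 : (2 * (J : ℝ) + 1) * w ≤ 2 * R + 7 := by
      have h2 : (2 * (J : ℝ) + 1) * w ≤ (2 * (R / w + 2) + 1) * w := by gcongr
      have h3 : (2 * (R / w + 2) + 1) * w = 2 * R + 5 * w := by field_simp; ring
      linarith
    have h4 : 2 * ((2 * (K : ℝ) + 1) * (2 * J + 1)) * (KK κ * (3 * w) ^ 2) =
        2 * (2 * (K : ℝ) + 1) * ((2 * J + 1) * w) * (9 * KK κ) * w := by ring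
    rw [h4]
    have h5 : 2 * (2 * (K : ℝ) + 1) * ((2 * J + 1) * w) * (9 * KK κ) * w ≤
        2 * (2 * ((R + 1) / l + 1) + 1) * (2 * R + 7) * (9 * KK κ) * w := by gcongr
    calc 2 * (2 * (K : ℝ) + 1) * ((2 * J + 1) * w) * (9 * KK κ) * w / η
        ≤ 2 * (2 * ((R + 1) / l + 1) + 1) * (2 * R + 7) * (9 * KK κ) * w / η := by gcongr
      _ = _ := by ring
  -- the net
  have hst := F.eventually_whp.1 (F.whp_stab.{u} R hw0) Ω P S hS
  have hst' := (ENNReal.tendsto_nhds_zero.1 hst) (ENNReal.ofReal δ') (by simpa using hδ'0)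
  have hsmall : ∀ᶠ ε : ℝ in 𝓝[>] 0, ε ≤ 3 * w := by
    filter_upwards [Ioo_mem_nhdsGT (show (0 : ℝ) < 3 * w by positivity)] with ε hε
    exact hε.2.le
  filter_upwards [hst', hsmall, self_mem_nhdsWithin] with ε h1 h2 h3
  have hε : 0 < ε := h3
  have hla : ((Real.toNNReal (ε ^ (-2 : ℤ)) : ℝ≥0) : ℝ) * ε ^ 2 = 1 := by
    rw [Real.coe_toNNReal _ (by positivity), zpow_neg]
    have : ε ^ (2 : ℤ) = ε ^ 2 := rfl
    rw [this]
    field_simp
  have h4 := markov_discs (hS ε hε) hε hla hΘ (lidx K J) (lp l w) (r := 3 * w) h2 hη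
  have h5 : {ω | ¬ RS Θ l R (ε, S ε ω).2 ≤ ENNReal.ofReal η} ⊆
      {ω | ¬ ∀ z ∈ closedBall (0 : ℂ) R, Stab (pts (ε, S ε ω).2) z w} ∪
      {ω | ENNReal.ofReal η ≤ ∑ g ∈ lidx K J, EQ (pts (S ε ω)) (closedBall (lp l w g) (3 * w)) Θ} := by
    intro ω hω
    by_cases hs : ∀ z ∈ closedBall (0 : ℂ) R, Stab (pts (ε, S ε ω).2) z w
    · right
      have h6 := RS_le Θ hl hw0 hK hJ hs
      exact (not_le.1 hω).le.trans h6
    · left
      exact hs
  calc P ε {ω | ¬ RS Θ l R (ε, S ε ω).2 ≤ ENNReal.ofReal η}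
      ≤ P ε _ + P ε _ := (measure_mono h5).trans (measure_union_le _ _)
    _ ≤ ENNReal.ofReal δ' + ENNReal.ofReal δ' :=
        add_le_add h1 (h4.trans (ENNReal.ofReal_le_ofReal hbound))
    _ = ENNReal.ofReal (2 * δ') := by rw [← ENNReal.ofReal_add hδ'0.le hδ'0.le]; ring_nf
    _ ≤ δ := hδ'

end Vale.Agent.P148.R2.H203
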